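import Vale.Agent.P314.Standard

namespace Vale.Agent.P314

open Polynomial

/-- iterated commutators `W 0 j = [x^j, y]`, `W (t+1) j = [W t j, W t (t+1)]` -/
def W {A : Type*} [Ring A] (x y : A) : ℕ → ℕ → A
  | 0, j => x ^ j * y - y * x ^ j
  | t + 1, j => W x y t j * W x y t (t + 1) - W x y t (t + 1) * W x y t j

theorem map_W {A B : Type*} [Ring A] [Ring B] (φ : A →+* B) (x y : A) (t j : ℕ) :
    φ (W x y t j) = W (φ x) (φ y) t j := by
  induction t generalizing j with
  | zero => simp [W]
  | succ t ih => simp only [W, map_sub, map_mul, ih]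

variable {F : Type*} [Field F] {n : ℕ}

/-- formula of a commutator -/
def commF (a b : Formula F n) : Formula F n :=
  .add (.mul a b) (.mul (.const (-1)) (.mul b a))

theorem commF_poly (a b : Formula F n) :
    (commF a b).poly = a.poly * b.poly - b.poly * a.poly := by
  simp [commF, Formula.poly_var, Formula.poly_const, Formula.poly_add, Formula.poly_mul, sub_eq_add_neg]

theorem commF_size (a b : Formula F n) : (commF a b).size = 2 * (a.size + b.size) + 5 := by
  simp only [commF, Formula.size_var, Formula.size_const, Formula.size_add, Formula.size_mul]; ring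

/-- formula of `W` -/
def WF (F : Type*) [Field F] {n : ℕ} (x y : Fin n) : ℕ → ℕ → Formula F n
  | 0, j => commF (wordF (List.replicate j x)) (.var y)
  | t + 1, j => commF (WF F x y t j) (WF F x y t (t + 1))

theorem WF_poly (x y : Fin n) (t j : ℕ) :
    (WF F x y t j).poly = W (FreeAlgebra.ι F x) (FreeAlgebra.ι F y) t j := by
  induction t generalizing j with
  | zero => simp [WF, W, commF_poly, wordF_poly, Formula.poly_var, Formula.poly_const, Formula.poly_add, Formula.poly_mul]
  | succ t ih => simp only [WF, W, commF_poly, ih]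

theorem WF_size (x y : Fin n) (K t j : ℕ) (ht : t + 1 ≤ K) (hj : j ≤ K) :
    (WF F x y t j).size + 2 ≤ 4 ^ t * (4 * K + 11) := by
  induction t generalizing j with
  | zero =>
    simp only [WF, commF_size, wordF_size, List.length_replicate, Formula.size_var, Formula.size_const, Formula.size_add, Formula.size_mul]
    omega
  | succ t ih =>
    have h1 := ih (j := j) (by omega) hj
    have h2 := ih (j := t + 1) (by omega) (by omega)
    simp only [WF, commF_size]
    have h3 : 4 ^ (t + 1) * (4 * K + 11) = 4 * (4 ^ t * (4 * K + 11)) := by ring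
    omega

/-- vanishing: a linear relation between the powers of `x` kills `W (k-1) k` -/
theorem W_relation {A : Type*} [Ring A] [Algebra F A] (x y : A) (k : ℕ) (c : ℕ → F)
    (hc : ∑ j ∈ Finset.range (k + 1), c j • x ^ j = 0) (t : ℕ) (ht : t < k) :
    ∑ j ∈ Finset.Ico (t + 1) (k + 1), c j • W x y t j = 0 := by
  induction t with
  | zero =>
    have h1 : ∑ j ∈ Finset.range (k + 1), c j • W x y 0 j = 0 := by
      have h2 : ∑ j ∈ Finset.range (k + 1), c j • W x y 0 j
          = (∑ j ∈ Finset.range (k + 1), c j • x ^ j) * y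
            - y * ∑ j ∈ Finset.range (k + 1), c j • x ^ j := by
        rw [Finset.sum_mul, Finset.mul_sum, ← Finset.sum_sub_distrib]
        refine Finset.sum_congr rfl fun j _ => ?_
        simp [W, smul_sub]
      rw [h2, hc, zero_mul, mul_zero, sub_zero]
    rw [Finset.range_eq_Ico, Finset.sum_eq_sum_Ico_succ_bot (by omega)] at h1
    have h3 : W x y 0 0 = 0 := by simp [W]
    rw [h3, smul_zero, zero_add] at h1
    exact h1
  | succ t ih =>
    have h1 := ih (by omega)
    have h2 : ∑ j ∈ Finset.Ico (t + 1) (k + 1), c j • W x y (t + 1) j = 0 := by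
      have h3 : ∑ j ∈ Finset.Ico (t + 1) (k + 1), c j • W x y (t + 1) j
          = (∑ j ∈ Finset.Ico (t + 1) (k + 1), c j • W x y t j) * W x y t (t + 1)
            - W x y t (t + 1) * ∑ j ∈ Finset.Ico (t + 1) (k + 1), c j • W x y t j := by
        rw [Finset.sum_mul, Finset.mul_sum, ← Finset.sum_sub_distrib]
        refine Finset.sum_congr rfl fun j _ => ?_
        simp [W, smul_sub]
      rw [h3, h1, zero_mul, mul_zero, sub_zero]
    rw [Finset.sum_eq_sum_Ico_succ_bot (by omega)] at h2
    have h4 : W x y (t + 1) (t + 1) = 0 := by simp [W]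
    rw [h4, smul_zero, zero_add] at h2
    exact h2

theorem W_vanish {d k : ℕ} (hk : 1 ≤ k) (hd : d ≤ k) (X Y : Matrix (Fin d) (Fin d) F) :
    W X Y (k - 1) k = 0 := by
  let p : F[X] := Polynomial.X ^ (k - d) * X.charpoly
  have hm : p.Monic := (monic_X_pow _).mul X.charpoly_monic
  have hdeg : p.natDegree = k := by
    rw [(monic_X_pow _).natDegree_mul X.charpoly_monic, natDegree_X_pow,
      Matrix.charpoly_natDegree_eq_dim, Fintype.card_fin]
    omega
  have h1 : Polynomial.aeval X p = 0 := by
    rw [map_mul, Matrix.aeval_self_charpoly, mul_zero]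
  rw [Polynomial.aeval_eq_sum_range, hdeg] at h1
  have h2 := W_relation X Y k p.coeff h1 (k - 1) (by omega)
  have h3 : k - 1 + 1 = k := by omega
  rw [h3, Finset.sum_Ico_succ_top (le_refl k), Finset.Ico_self, Finset.sum_empty, zero_add] at h2
  have h4 : p.coeff k = 1 := by rw [← hdeg]; exact hm.coeff_natDegree
  rw [h4, one_smul] at h2
  exact h2

/-! nonvanishing: a representation with `x y = q y x` -/

/-- the module -/
abbrev MM (F : Type*) [Field F] := ℕ →₀ F[X]

/-- `x e_i = q^i e_i` -/
noncomputable def xop (F : Type*) [Field F] : Module.End F[X] (MM F) :=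
  Finsupp.lsum F[X] fun i => LinearMap.toSpanSingleton F[X] (MM F)
    (Finsupp.single i (Polynomial.X ^ i))

/-- `y e_i = e_{i+1}` -/
noncomputable def yop (F : Type*) [Field F] : Module.End F[X] (MM F) :=
  Finsupp.lsum F[X] fun i => LinearMap.toSpanSingleton F[X] (MM F)
    (Finsupp.single (i + 1) 1)

theorem xop_single (i : ℕ) (p : F[X]) :
    xop F (Finsupp.single i p) = Finsupp.single i (p * Polynomial.X ^ i) := by
  simp [xop, LinearMap.toSpanSingleton_apply]

theorem yop_single (i : ℕ) (p : F[X]) :
    yop F (Finsupp.single i p) = Finsupp.single (i + 1) p := by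
  simp [yop, LinearMap.toSpanSingleton_apply]

theorem xop_pow (j i : ℕ) (p : F[X]) :
    (xop F ^ j) (Finsupp.single i p) = Finsupp.single i (p * Polynomial.X ^ (i * j)) := by
  induction j with
  | zero => simp
  | succ j ih =>
    rw [pow_succ', Module.End.mul_apply, ih, xop_single]
    congr 1
    ring

theorem W_op (t : ℕ) : ∃ a b : ℕ, 1 ≤ a ∧ ∀ j, t + 1 ≤ j → ∃ C : F[X], C ≠ 0 ∧
    ∀ (i : ℕ) (p : F[X]), W (xop F) (yop F) t j (Finsupp.single i p)
      = Finsupp.single (i + a) (p * (C * Polynomial.X ^ ((j + b) * i))) := by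
  induction t with
  | zero =>
    refine ⟨1, 0, le_rfl, fun j hj => ⟨Polynomial.X ^ j - 1, ?_, fun i p => ?_⟩⟩
    · intro h
      have h1 : (Polynomial.X : F[X]) ^ j = Polynomial.X ^ 0 := by
        rw [pow_zero]; exact sub_eq_zero.1 h
      have := congrArg natDegree h1
      simp only [natDegree_X_pow] at this
      omega
    · simp only [W, LinearMap.sub_apply, Module.End.mul_apply, yop_single, xop_pow]
      rw [← Finsupp.single_sub]
      congr 1
      ring
  | succ t ih =>
    obtain ⟨a, b, ha, h⟩ := ih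
    refine ⟨2 * a, t + 1 + 2 * b, by omega, fun j hj => ?_⟩
    obtain ⟨C, hC, hW⟩ := h j (by omega)
    obtain ⟨D, hD, hV⟩ := h (t + 1) le_rfl
    refine ⟨C * D * (Polynomial.X ^ ((j + b) * a) - Polynomial.X ^ ((t + 1 + b) * a)), ?_,
      fun i p => ?_⟩
    · refine mul_ne_zero (mul_ne_zero hC hD) ?_
      intro h0
      have h1 := congrArg natDegree (sub_eq_zero.1 h0)
      simp only [natDegree_X_pow] at h1
      have h2 : j + b = t + 1 + b := Nat.eq_of_mul_eq_mul_right (by omega) h1
      omega
    · simp only [W, LinearMap.sub_apply, Module.End.mul_apply, hW, hV]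
      have e : i + a + a = i + 2 * a := by ring
      rw [e, ← Finsupp.single_sub]
      congr 1
      ring

theorem W_ne_zero {x y : Fin n} (hxy : x ≠ y) {k : ℕ} (hk : 1 ≤ k) :
    W (FreeAlgebra.ι F x) (FreeAlgebra.ι F y) (k - 1) k ≠ 0 := by
  intro h
  let T : Fin n → Module.End F[X] (MM F) := fun i => if i = x then xop F else yop F
  have h1 := congrArg (FreeAlgebra.lift F T) h
  have h2 := map_W (A := FreeAlgebra F (Fin n)) (B := Module.End F[X] (MM F))
    (FreeAlgebra.lift F T).toRingHom (FreeAlgebra.ι F x) (FreeAlgebra.ι F y) (k - 1) k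
  have h3 : (FreeAlgebra.lift F T).toRingHom (FreeAlgebra.ι F x) = xop F := by
    simp [T]
  have h4 : (FreeAlgebra.lift F T).toRingHom (FreeAlgebra.ι F y) = yop F := by
    simp [T, hxy.symm]
  rw [h3, h4] at h2
  rw [map_zero] at h1
  have h5 : W (xop F) (yop F) (k - 1) k = 0 := h2.symm.trans h1
  obtain ⟨a, b, ha, hW⟩ := W_op (F := F) (k - 1)
  obtain ⟨C, hC, hi⟩ := hW k (by omega)
  have h6 := hi 0 1
  rw [h5, LinearMap.zero_apply] at h6
  have h7 := (Finsupp.single_eq_zero.1 h6.symm)
  apply hC
  simpa using h7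

end Vale.Agent.P314
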