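import Mathlib

/-!
# P314: noncommutative formulas and matrix hitting sets
-/

namespace Vale.Agent.P314

/-- Noncommutative formulas over `F` in the variables `x_i`, `i : Fin n`: trees whose leaves are
variables or scalars and whose internal vertices are binary addition or multiplication gates. -/
inductive Formula (F : Type*) (n : ℕ) : Type _
  | var : Fin n → Formula F n
  | const : F → Formula F n
  | add : Formula F n → Formula F n → Formula F n
  | mul : Formula F n → Formula F n → Formula F n

/-- The size of a formula: the total number of vertices, leaves included. -/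
def Formula.size {F : Type*} {n : ℕ} : Formula F n → ℕ
  | .var _ => 1
  | .const _ => 1
  | .add a b => a.size + b.size + 1
  | .mul a b => a.size + b.size + 1

/-- The polynomial computed by a formula, in the free associative algebra. -/
noncomputable def Formula.poly {F : Type*} [Field F] {n : ℕ} :
    Formula F n → FreeAlgebra F (Fin n)
  | .var i => FreeAlgebra.ι F i
  | .const a => algebraMap F (FreeAlgebra F (Fin n)) a
  | .add a b => a.poly + b.poly
  | .mul a b => a.poly * b.poly

theorem Formula.size_var {F : Type*} {n : ℕ} (i : Fin n) :
    (Formula.var i : Formula F n).size = 1 := rfl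
theorem Formula.size_const {F : Type*} {n : ℕ} (a : F) :
    (Formula.const a : Formula F n).size = 1 := rfl
theorem Formula.size_add {F : Type*} {n : ℕ} (a b : Formula F n) :
    (Formula.add a b).size = a.size + b.size + 1 := rfl
theorem Formula.size_mul {F : Type*} {n : ℕ} (a b : Formula F n) :
    (Formula.mul a b).size = a.size + b.size + 1 := rfl
theorem Formula.poly_var {F : Type*} [Field F] {n : ℕ} (i : Fin n) :
    (Formula.var i : Formula F n).poly = FreeAlgebra.ι F i := rfl
theorem Formula.poly_const {F : Type*} [Field F] {n : ℕ} (a : F) :
    (Formula.const a : Formula F n).poly = algebraMap F (FreeAlgebra F (Fin n)) a := rfl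
theorem Formula.poly_add {F : Type*} [Field F] {n : ℕ} (a b : Formula F n) :
    (Formula.add a b).poly = a.poly + b.poly := rfl
theorem Formula.poly_mul {F : Type*} [Field F] {n : ℕ} (a b : Formula F n) :
    (Formula.mul a b).poly = a.poly * b.poly := rfl

/-- The finite family `T` of `n`-tuples of matrices (the `i`-th tuple consists of matrices of
dimension `dim i`) is a hitting set for the formulas of size at most `s`: every nonzero polynomial
computed by such a formula has a nonzero value at one of the tuples. -/
def IsHitting {F : Type*} [Field F] {n : ℕ} {ι : Type*} (s : ℕ) (dim : ι → ℕ)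
    (T : (i : ι) → Fin n → Matrix (Fin (dim i)) (Fin (dim i)) F) : Prop :=
  ∀ φ : Formula F n, φ.size ≤ s → φ.poly ≠ 0 → ∃ i, FreeAlgebra.lift F (T i) φ.poly ≠ 0

end Vale.Agent.P314
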