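import Vale.Agent.P314.Defs

namespace Vale.Agent.P314

variable {F : Type*} [Field F] {n : ℕ}

open Polynomial in
/-- Horner scheme -/
theorem exists_horner (i : Fin n) : ∀ (D : ℕ) (p : F[X]), p.natDegree ≤ D →
    ∃ φ : Formula F n, φ.poly = Polynomial.aeval (FreeAlgebra.ι F i) p ∧ φ.size ≤ 4 * D + 1 := by
  intro D
  induction D with
  | zero =>
    intro p hp
    refine ⟨.const (p.coeff 0), ?_, by simp [Formula.size_var, Formula.size_const, Formula.size_add, Formula.size_mul]⟩
    have h : p = C (p.coeff 0) := eq_C_of_natDegree_eq_zero (Nat.le_zero.1 hp)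
    rw [h]
    simp [Formula.poly_var, Formula.poly_const, Formula.poly_add, Formula.poly_mul]
  | succ D ih =>
    intro p hp
    obtain ⟨φ, h1, h2⟩ := ih p.divX (by rw [natDegree_divX_eq_natDegree_tsub_one]; omega)
    refine ⟨.add (.mul φ (.var i)) (.const (p.coeff 0)), ?_, ?_⟩
    · have h := divX_mul_X_add p
      conv_rhs => rw [← h]
      simp [Formula.poly_var, Formula.poly_const, Formula.poly_add, Formula.poly_mul, h1]
    · simp only [Formula.size_var, Formula.size_const, Formula.size_add, Formula.size_mul]; omega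

open Polynomial in
theorem aeval_ι_ne_zero (i : Fin n) {p : F[X]} (hp : p ≠ 0) :
    Polynomial.aeval (FreeAlgebra.ι F i) p ≠ 0 := by
  intro h
  apply hp
  have h1 := congrArg (FreeAlgebra.lift F (fun _ : Fin n => (X : F[X]))) h
  rw [map_zero, ← Polynomial.aeval_algHom_apply, FreeAlgebra.lift_ι_apply,
    Polynomial.aeval_X_left_apply] at h1
  exact h1

open Polynomial in
/-- total dimension at least `s/4` -/
theorem total_dim {ι : Type*} [Fintype ι] (hn : 1 ≤ n) {s : ℕ} {dim : ι → ℕ}
    {T : (i : ι) → Fin n → Matrix (Fin (dim i)) (Fin (dim i)) F} (h : IsHitting s dim T) :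
    s ≤ 4 * ∑ i, dim i := by
  by_contra hc
  push Not at hc
  let x : Fin n := ⟨0, hn⟩
  let p : F[X] := ∏ i, (T i x).charpoly
  have hmonic : p.Monic := monic_prod_of_monic _ _ fun i _ => (T i x).charpoly_monic
  have hdeg : p.natDegree ≤ ∑ i, dim i := by
    refine (natDegree_prod_le _ _).trans (Finset.sum_le_sum fun i _ => ?_)
    rw [Matrix.charpoly_natDegree_eq_dim, Fintype.card_fin]
  obtain ⟨φ, h1, h2⟩ := exists_horner (F := F) x _ p hdeg
  obtain ⟨i, hi⟩ := h φ (by omega) (by rw [h1]; exact aeval_ι_ne_zero x hmonic.ne_zero)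
  apply hi
  rw [h1, ← Polynomial.aeval_algHom_apply, FreeAlgebra.lift_ι_apply]
  have hdvd : (T i x).charpoly ∣ p := Finset.dvd_prod_of_mem _ (Finset.mem_univ i)
  obtain ⟨q, hq⟩ := hdvd
  rw [hq, map_mul, Matrix.aeval_self_charpoly, zero_mul]

end Vale.Agent.P314
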