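import Vale.Agent.P314.Defs

namespace Vale.Agent.P314

variable {F : Type*} [Field F] {n : ℕ}

/-- formula of a word -/
def wordF : List (Fin n) → Formula F n
  | [] => .const 1
  | a :: l => .mul (.var a) (wordF l)

theorem wordF_size (l : List (Fin n)) : (wordF (F := F) l).size = 2 * l.length + 1 := by
  induction l with
  | nil => simp [wordF, Formula.size_var, Formula.size_const, Formula.size_add, Formula.size_mul]
  | cons a l ih => simp only [wordF, Formula.size_var, Formula.size_const, Formula.size_add, Formula.size_mul, ih, List.length_cons]; omega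

theorem wordF_poly (l : List (Fin n)) :
    (wordF (F := F) l).poly = (l.map (FreeAlgebra.ι F)).prod := by
  induction l with
  | nil => simp [wordF, Formula.poly_var, Formula.poly_const, Formula.poly_add, Formula.poly_mul]
  | cons a l ih => simp [wordF, Formula.poly_var, Formula.poly_const, Formula.poly_add, Formula.poly_mul, ih]

/-- formula of a linear combination of words -/
def sumF : List (F × List (Fin n)) → Formula F n
  | [] => .const 0
  | p :: l => .add (.mul (.const p.1) (wordF p.2)) (sumF l)

theorem sumF_size (L : ℕ) (l : List (F × List (Fin n))) (hl : ∀ p ∈ l, p.2.length ≤ L) :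
    (sumF l).size ≤ l.length * (2 * L + 4) + 1 := by
  induction l with
  | nil => simp [sumF, Formula.size_var, Formula.size_const, Formula.size_add, Formula.size_mul]
  | cons p l ih =>
    have h1 := ih fun q hq => hl q (List.mem_cons_of_mem _ hq)
    have h2 := hl p (List.mem_cons_self)
    simp only [sumF, Formula.size_var, Formula.size_const, Formula.size_add, Formula.size_mul, wordF_size, List.length_cons]
    have h3 : (l.length + 1) * (2 * L + 4) = l.length * (2 * L + 4) + (2 * L + 4) := by ring
    omega

theorem sumF_poly (l : List (F × List (Fin n))) :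
    (sumF l).poly = (l.map fun p => p.1 • (p.2.map (FreeAlgebra.ι F)).prod).sum := by
  induction l with
  | nil => simp [sumF, Formula.poly_var, Formula.poly_const, Formula.poly_add, Formula.poly_mul]
  | cons p l ih => simp [sumF, Formula.poly_var, Formula.poly_const, Formula.poly_add, Formula.poly_mul, ih, wordF_poly, Algebra.smul_def]

/-- the word `x^{a_0} y x^{a_1} y ⋯` -/
def cword (x y : Fin n) (as : List ℕ) : List (Fin n) :=
  (as.map fun a => List.replicate a x ++ [y]).flatten

theorem cword_inj {x y : Fin n} (hxy : x ≠ y) : ∀ (as bs : List ℕ), as.length = bs.length →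
    cword x y as = cword x y bs → as = bs := by
  have key : ∀ (a b : ℕ) (l l' : List (Fin n)),
      List.replicate a x ++ y :: l = List.replicate b x ++ y :: l' → a = b ∧ l = l' := by
    intro a
    induction a with
    | zero =>
      intro b l l' h
      cases b with
      | zero => simpa using h
      | succ b =>
        rw [List.replicate_succ] at h
        simp only [List.replicate_zero, List.nil_append, List.cons_append, List.cons.injEq] at h
        exact absurd h.1.symm hxy
    | succ a ih =>
      intro b l l' h
      cases b with
      | zero =>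
        rw [List.replicate_succ] at h
        simp only [List.replicate_zero, List.nil_append, List.cons_append, List.cons.injEq] at h
        exact absurd h.1 hxy
      | succ b =>
        rw [List.replicate_succ, List.replicate_succ] at h
        simp only [List.cons_append, List.cons.injEq, true_and] at h
        obtain ⟨h1, h2⟩ := ih b l l' h
        exact ⟨by omega, h2⟩
  intro as
  induction as with
  | nil =>
    intro bs hl _
    cases bs with
    | nil => rfl
    | cons b bs => simp at hl
  | cons a as ih =>
    intro bs hl h
    cases bs with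
    | nil => simp at hl
    | cons b bs =>
      simp only [cword, List.map_cons, List.flatten_cons, List.append_assoc,
        List.singleton_append] at h
      obtain ⟨h1, h2⟩ := key a b _ _ h
      have h3 := ih bs (by simpa using hl) h2
      rw [h1, h3]

/-- the list of the exponents for a permutation -/
def expo {k : ℕ} (σ : Equiv.Perm (Fin k)) : List ℕ := List.ofFn fun j => (σ j : ℕ)

theorem expo_inj {k : ℕ} : Function.Injective (expo (k := k)) := by
  intro σ τ h
  have h1 := List.ofFn_injective h
  ext j
  exact congrFun h1 j

/-- the two-variable identity of `k-1` dimensional matrices -/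
noncomputable def stdF (F : Type*) [Field F] {n : ℕ} (k : ℕ) (x y : Fin n) : Formula F n :=
  sumF ((Finset.univ : Finset (Equiv.Perm (Fin k))).toList.map fun σ =>
    (((Equiv.Perm.sign σ : ℤ) : F), cword x y (expo σ)))

end Vale.Agent.P314

namespace Vale.Agent.P314

variable {F : Type*} [Field F] {n : ℕ}

theorem cword_length (x y : Fin n) (k : ℕ) (as : List ℕ) (h : ∀ a ∈ as, a < k) :
    (cword x y as).length ≤ as.length * k := by
  induction as with
  | nil => simp [cword]
  | cons a as ih =>
    have h1 := ih fun b hb => h b (List.mem_cons_of_mem _ hb)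
    have h2 := h a List.mem_cons_self
    have h3 : (cword x y (a :: as)).length = a + 1 + (cword x y as).length := by
      simp only [cword, List.map_cons, List.flatten_cons, List.length_append,
        List.length_replicate, List.length_singleton]
    rw [h3, List.length_cons]
    nlinarith

theorem stdF_size (k : ℕ) (x y : Fin n) :
    (stdF F k x y).size ≤ k.factorial * (2 * (k * k) + 4) + 1 := by
  refine (sumF_size (k * k) _ ?_).trans ?_
  · intro p hp
    simp only [List.mem_map, Finset.mem_toList, Finset.mem_univ, true_and] at hp
    obtain ⟨σ, rfl⟩ := hp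
    refine (cword_length x y k (expo σ) ?_).trans ?_
    · intro a ha
      simp only [expo, List.mem_ofFn] at ha
      obtain ⟨j, rfl⟩ := ha
      exact (σ j).2
    · simp [expo]
  · rw [List.length_map, Finset.length_toList, Finset.card_univ, Fintype.card_perm,
      Fintype.card_fin]

theorem stdF_poly (k : ℕ) (x y : Fin n) :
    (stdF F k x y).poly = ∑ σ : Equiv.Perm (Fin k), ((Equiv.Perm.sign σ : ℤ) : F) •
      ((cword x y (expo σ)).map (FreeAlgebra.ι F)).prod := by
  unfold stdF
  rw [sumF_poly, List.map_map]
  exact Finset.sum_map_toList _ _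

theorem equiv_word (l : List (Fin n)) :
    FreeAlgebra.equivMonoidAlgebraFreeMonoid (R := F) ((l.map (FreeAlgebra.ι F)).prod)
      = MonoidAlgebra.single (FreeMonoid.ofList l) 1 := by
  induction l with
  | nil => simp [MonoidAlgebra.one_def]
  | cons a l ih =>
    rw [List.map_cons, List.prod_cons, map_mul, ih]
    have h1 : FreeAlgebra.equivMonoidAlgebraFreeMonoid (R := F) (FreeAlgebra.ι F a)
        = MonoidAlgebra.single (FreeMonoid.of a) 1 := by
      simp [FreeAlgebra.equivMonoidAlgebraFreeMonoid, MonoidAlgebra.of]
    rw [h1, MonoidAlgebra.single_mul_single, one_mul]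
    rfl

theorem stdF_ne_zero (k : ℕ) {x y : Fin n} (hxy : x ≠ y) : (stdF F k x y).poly ≠ 0 := by
  intro h
  have h1 := congrArg (FreeAlgebra.equivMonoidAlgebraFreeMonoid (R := F)) h
  rw [stdF_poly, map_sum, map_zero] at h1
  simp only [map_smul, equiv_word] at h1
  have h2 := congrArg (fun f : MonoidAlgebra F (FreeMonoid (Fin n)) =>
    f.coeff (FreeMonoid.ofList (cword x y (expo (1 : Equiv.Perm (Fin k)))))) h1
  simp only [MonoidAlgebra.coeff_sum, MonoidAlgebra.coeff_zero, Finsupp.coe_zero,
    Pi.zero_apply, Finsupp.coe_finset_sum, Finset.sum_apply, MonoidAlgebra.coeff_smul,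
    Finsupp.smul_apply, MonoidAlgebra.coeff_single, smul_eq_mul] at h2
  rw [Finset.sum_eq_single (1 : Equiv.Perm (Fin k))] at h2
  · rw [Finsupp.single_eq_same] at h2
    simp at h2
  · intro σ _ hσ
    rw [Finsupp.single_eq_of_ne, mul_zero]
    intro he
    apply hσ
    have he' : cword x y (expo σ) = cword x y (expo (1 : Equiv.Perm (Fin k))) :=
      (FreeMonoid.ofList.injective he.symm)
    exact expo_inj (cword_inj hxy _ _ (by simp [expo]) he')
  · intro h3
    exact absurd (Finset.mem_univ _) h3

theorem cword_eval {d : ℕ} (x y : Fin n) (T : Fin n → Matrix (Fin d) (Fin d) F) (as : List ℕ) :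
    FreeAlgebra.lift F T (((cword x y as).map (FreeAlgebra.ι F)).prod)
      = (as.map fun a => T x ^ a * T y).prod := by
  induction as with
  | nil => simp [cword]
  | cons a as ih =>
    have h : cword x y (a :: as) = List.replicate a x ++ y :: cword x y as := by
      simp [cword]
    rw [h, List.map_append, List.prod_append, List.map_cons, List.prod_cons, map_mul, map_mul,
      ih, List.map_cons, List.prod_cons, List.map_replicate, List.prod_replicate, map_pow,
      FreeAlgebra.lift_ι_apply, FreeAlgebra.lift_ι_apply, mul_assoc]

open Polynomial in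
theorem pow_dependent {d k : ℕ} (hd : d < k) (X : Matrix (Fin d) (Fin d) F) :
    ¬ LinearIndependent F (fun j : Fin k => X ^ (j : ℕ)) := by
  rw [Fintype.not_linearIndependent_iff]
  refine ⟨fun j => X.charpoly.coeff j, ?_, ⟨⟨d, hd⟩, ?_⟩⟩
  · have h1 : X.charpoly.natDegree < k := by
      rw [Matrix.charpoly_natDegree_eq_dim, Fintype.card_fin]; exact hd
    have h2 := Matrix.aeval_self_charpoly X
    rw [Polynomial.aeval_eq_sum_range' h1, Finset.sum_range] at h2
    exact h2
  · have h3 : X.charpoly.natDegree = d := by
      rw [Matrix.charpoly_natDegree_eq_dim, Fintype.card_fin]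
    have h4 := X.charpoly_monic.coeff_natDegree
    rw [h3] at h4
    simp only
    rw [h4]
    exact one_ne_zero

theorem stdF_vanish (k : ℕ) (x y : Fin n) {d : ℕ} (hd : d < k)
    (T : Fin n → Matrix (Fin d) (Fin d) F) : FreeAlgebra.lift F T (stdF F k x y).poly = 0 := by
  rw [stdF_poly, map_sum]
  let m : MultilinearMap F (fun _ : Fin k => Matrix (Fin d) (Fin d) F)
      (Matrix (Fin d) (Fin d) F) :=
    (MultilinearMap.mkPiAlgebraFin F k (Matrix (Fin d) (Fin d) F)).compLinearMap
      (fun _ => LinearMap.mulRight F (T y))
  have h := (MultilinearMap.alternatization m).map_linearDependent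
    (fun j : Fin k => T x ^ (j : ℕ)) (pow_dependent hd (T x))
  rw [MultilinearMap.alternatization_apply] at h
  rw [← h]
  refine Finset.sum_congr rfl fun σ _ => ?_
  rw [map_smul, cword_eval]
  have h2 : (MultilinearMap.domDomCongr σ m) (fun j : Fin k => T x ^ (j : ℕ))
      = ((expo σ).map fun a => T x ^ a * T y).prod := by
    rw [MultilinearMap.domDomCongr_apply]
    simp only [m, MultilinearMap.compLinearMap_apply, MultilinearMap.mkPiAlgebraFin_apply,
      LinearMap.mulRight_apply, expo, List.map_ofFn]
    rfl
  rw [h2]
  rw [Int.cast_smul_eq_zsmul]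
  rfl

end Vale.Agent.P314
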